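import Vale.Agent.P095.Gen.Reindex
import Vale.Agent.P101.Coord

/-!
# P095: the fixed algebra of a countable group has copies
-/

namespace Vale.Agent.P095.Gen

open VAgent.P101 Vale.Agent.P095 Filter BoundedContinuousFunction
open scoped ComplexOrder CStarAlgebra Topology BoundedContinuousFunction

noncomputable section

universe u

variable {A : Type u} [CStarAlgebra A] [Nontrivial A] [TopologicalSpace.SeparableSpace A]
  {ω : Ultrafilter ℕ}

variable {H : Type*} [Group H] [Countable H] (β : H →* (A ≃⋆ₐ[ℂ] A))

theorem isSeparable_genAlg {F : Type*} [CStarAlgebra F] (T : Finset F) :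
    TopologicalSpace.IsSeparable (GenAlg T : Set F) :=
  (isSeparable_adjoin_finset T).closure

omit [Nontrivial A] in
/-- The invariant elements have copies inside the invariant elements. -/
theorem hasCopies_fixedAlg (hω : (ω : Filter ℕ) ≤ cofinite) : HasCopies (fixedAlg ω β) := by
  intro T S
  classical
  let T' : Finset (CentralSeq A ω) := T.image Subtype.val
  obtain ⟨φ, hφS, hφG⟩ := exists_copy hω (fun h => β h) (GenAlg T') (isSeparable_genAlg T')
    (S.image Subtype.val : Set (CentralSeq A ω)) (Finset.countable_toSet _)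
  have hle : GenAlg T ≤ (GenAlg T').comap (fixedAlg ω β).subtype :=
    StarSubalgebra.topologicalClosure_minimal
      (StarAlgebra.adjoin_le fun t ht => mem_genAlg (Finset.mem_image_of_mem _ ht))
      ((genAlg_isClosed T').preimage continuous_subtype_val)
  let j : GenAlg T →⋆ₐ[ℂ] GenAlg T' :=
    StarAlgHom.codRestrict ((fixedAlg ω β).subtype.comp (GenAlg T).subtype) (GenAlg T')
      fun x => hle x.2
  refine ⟨StarAlgHom.codRestrict (φ.comp j) (fixedAlg ω β)
    fun x h => hφG h (j x) (j x) (((mem_fixedAlg β).1 (x : fixedAlg ω β).2) h),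
    fun z hz x => Subtype.ext ?_⟩
  exact (hφS _ (Finset.mem_coe.2 (Finset.mem_image_of_mem _ hz)) (j x)).eq

/-- Without characters the invariant elements receive every dimension drop algebra. -/
theorem exists_dimDrop_fixedAlg (hω : (ω : Filter ℕ) ≤ cofinite)
    (hno : IsEmpty (fixedAlg ω β →⋆ₐ[ℂ] ℂ)) (n : ℕ) [NeZero n] :
    Nonempty (Vale.Agent.P101.DimDrop n →⋆ₐ[ℂ] fixedAlg ω β) := by
  haveI : Nontrivial (fixedAlg ω β) :=
    ⟨⟨1, 0, fun e => one_ne_zero (α := CentralSeq A ω) (congrArg Subtype.val e)⟩⟩
  letI : PartialOrder (fixedAlg ω β) := CStarAlgebra.spectralOrder (fixedAlg ω β)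
  haveI : StarOrderedRing (fixedAlg ω β) := CStarAlgebra.spectralOrderedRing (fixedAlg ω β)
  refine exists_dimDrop (hasCopies_fixedAlg β hω) (fun χ => ?_) n
  have h : χ 1 * χ 1 = χ 1 := by rw [← map_mul, one_mul]
  rcases (show χ 1 = 1 ∨ χ 1 = 0 from by
    rcases eq_or_ne (χ 1) 0 with h0 | h0
    · exact Or.inr h0
    · exact Or.inl (mul_right_cancel₀ h0 (h.trans (one_mul _).symm))) with h1 | h0
  · exact (hno.false
      { toFun := χ
        map_one' := h1
        map_mul' := map_mul χ
        map_zero' := map_zero χ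
        map_add' := map_add χ
        commutes' := fun r => by
          rw [Algebra.algebraMap_eq_smul_one, map_smul χ, h1]
          simp
        map_star' := map_star χ }).elim
  · refine DFunLike.ext _ _ fun x => ?_
    rw [← mul_one x, map_mul χ, h0, mul_zero]
    simp

end

end Vale.Agent.P095.Gen
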