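import Vale.Agent.P095.Main
import Vale.Agent.P095.Intertwine
import Vale.Agent.P095.Assemble
import Vale.Agent.P095.Gen.Fixed
import Vale.Agent.P095.Gen.Lift

/-!
# P095: no characters on the fixed central algebra gives equivariant Z-stability, any countable group
-/

namespace Vale.Agent.P095.Gen

open VAgent.P101 Vale.Agent.P101.JS Vale.Agent.P095 Filter TopologicalSpace
open scoped ComplexOrder CStarAlgebra Topology BoundedContinuousFunction

set_option linter.unusedSectionVars false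
set_option linter.style.haveILetI false

noncomputable section

universe u

variable {A : Type u} [CStarAlgebra A] [PartialOrder A] [StarOrderedRing A] [Nontrivial A]
  [SeparableSpace A] {ω : Ultrafilter ℕ} {H : Type*} [Group H] [Countable H]
  (β : H →* (A ≃⋆ₐ[ℂ] A))

/-- The unitary over the ultrapower. -/
theorem exists_V_inv (hω : (ω : Filter ℕ) ≤ cofinite) (hno : IsEmpty (fixedAlg ω β →⋆ₐ[ℂ] ℂ))
    (hHF : HalfFlipStatement) (m : ℕ) (G : Set (Blk ℂ (P m) (Q m))) (η : ℝ)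
    (U : MPath ℂ (Ix (P m) (Q m))) (h1 : star U * U = 1) (h2 : U * star U = 1)
    (hU : ∀ g ∈ G, ∀ t s : unitInterval,
      ‖star (U t) * (g : MPath ℂ (Ix (P m) (Q m))) t * U t
        - star (U s) * (g : MPath ℂ (Ix (P m) (Q m))) s * U s‖ ≤ η) :
    letI : PartialOrder (UPow A ω) := CStarAlgebra.spectralOrder (UPow A ω)
    letI : StarOrderedRing (UPow A ω) := CStarAlgebra.spectralOrderedRing (UPow A ω)
    ∃ V : Blk (UPow A ω) (P m) (Q m), star V * V = 1 ∧ V * star V = 1 ∧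
      (∀ h t x y, upowAct ω (β h) ((V : MPath (UPow A ω) (Ix (P m) (Q m))) t x y) =
        (V : MPath (UPow A ω) (Ix (P m) (Q m))) t x y) ∧
      (∀ a : A, V * const (UPow A ω) (P m) (Q m) (icHom A ω a) =
        const (UPow A ω) (P m) (Q m) (icHom A ω a) * V) ∧
      ∀ g ∈ G, ∃ c : UPow A ω,
        ‖star V * scBlk (UPow A ω) (P m) (Q m) g * V - const (UPow A ω) (P m) (Q m) c‖
          ≤ 10 * η := by
  letI : PartialOrder (UPow A ω) := CStarAlgebra.spectralOrder (UPow A ω)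
  letI : StarOrderedRing (UPow A ω) := CStarAlgebra.spectralOrderedRing (UPow A ω)
  letI : PartialOrder (Blk ℂ (P m) (Q m)) := CStarAlgebra.spectralOrder (Blk ℂ (P m) (Q m))
  letI : StarOrderedRing (Blk ℂ (P m) (Q m)) :=
    CStarAlgebra.spectralOrderedRing (Blk ℂ (P m) (Q m))
  obtain ⟨hp, hq, hpq⟩ := size_spec m
  obtain ⟨H, hH1, hH2, hH3⟩ := hHF (P m) (Q m) (by omega) (by omega) G η U h1 h2 hU
  obtain ⟨n, hn, ⟨θ⟩⟩ := dimDropHom (P m) (Q m) hp hq hpq
  haveI : NeZero n := ⟨by omega⟩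
  obtain ⟨Φ⟩ := exists_dimDrop_fixedAlg β hω hno n
  obtain ⟨φ, hφ, hfix⟩ : ∃ φ : Blk ℂ (P m) (Q m) →⋆ₐ[ℂ] UPow A ω,
      (∀ x, φ x ∈ CentralSeq A ω) ∧ ∀ h x, upowAct ω (β h) (φ x) = φ x :=
    ⟨(CentralSeq A ω).subtype.comp ((fixedAlg ω β).subtype.comp (Φ.comp θ)),
      fun x => (Φ (θ x)).1.2,
      fun h x => congrArg Subtype.val ((mem_fixedAlg β).1 (Φ (θ x)).2 h)⟩
  obtain ⟨V, hV1, hV2, hV5, hV3, hV4⟩ := exists_push_entries φ H hH1 hH2
  refine ⟨V, hV1, hV2, fun h t x y => ?_, fun a => hV3 _ fun x => (mem_centralSeq.1 (hφ x) a).symm,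
    fun g hg => ⟨φ g, hV4 g g _ (hH3 g hg)⟩⟩
  obtain ⟨b, hb⟩ := hV5 t x y
  rw [hb]
  exact hfix h b

/-- One stage: a unitary almost commuting with `F` and moving the `X k` close to constants. -/
theorem exists_stage_inv (hω : (ω : Filter ℕ) ≤ cofinite) (hno : IsEmpty (fixedAlg ω β →⋆ₐ[ℂ] ℂ))
    (hHF : HalfFlipStatement) (K : Finset H) (F : Finset A) {n : ℕ} {ι : Type*} [Fintype ι] (L : ι → ℕ)
    (a : ∀ k, Fin (L k) → A) (g : ∀ k, Fin (L k) → Blk ℂ (P n) (Q n)) {ε : ℝ} (hε : 0 < ε) :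
    ∃ (d : ℕ) (u : Blk A (P (n + d)) (Q (n + d))), star u * u = 1 ∧ u * star u = 1 ∧
      (∀ x ∈ F, ‖u * const A (P (n + d)) (Q (n + d)) x
        - const A (P (n + d)) (Q (n + d)) x * u‖ ≤ ε) ∧
      (∀ h ∈ K, ‖mapBlk (P (n + d)) (Q (n + d)) (β h : A →⋆ₐ[ℂ] A) u - u‖ ≤ ε) ∧
      ∀ k, ∃ b : A,
        ‖star u * connTo A n d (∑ i, const A (P n) (Q n) (a k i) * scBlk A (P n) (Q n) (g k i)) * u
          - const A (P (n + d)) (Q (n + d)) b‖ ≤ ε := by
  classical
  set C : ℝ := 1 + ∑ k, ∑ i, ‖a k i‖ with hC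
  have hC0 : 0 < C := by positivity
  let G0 : Finset (Blk ℂ (P n) (Q n)) := Finset.univ.biUnion fun k : ι => Finset.univ.image (g k)
  obtain ⟨d, U, hU1, hU2, hU3⟩ := collapse n G0 (η := ε / (20 * C)) (by positivity)
  letI : PartialOrder (UPow A ω) := CStarAlgebra.spectralOrder (UPow A ω)
  letI : StarOrderedRing (UPow A ω) := CStarAlgebra.spectralOrderedRing (UPow A ω)
  obtain ⟨V, hV1, hV2, hVi, hVa, hVg⟩ := exists_V_inv β hω hno hHF (n + d)
    (connTo ℂ n d '' (G0 : Set _)) (ε / (20 * C)) U hU1 hU2 (by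
      rintro _ ⟨g', hg', rfl⟩
      exact hU3 g' hg')
  obtain ⟨u, hu1, hu2, huF, hui, huG⟩ := lift_inv (K.image β) (icHom A ω) (icHom_apply ω)
    V hV1 hV2 (fun e he => by obtain ⟨h, -, rfl⟩ := Finset.mem_image.1 he; exact hVi h) F (fun x _ => hVa x) (Finset.univ.image fun k => ∑ i,
      const A (P (n + d)) (Q (n + d)) (a k i) *
        scBlk A (P (n + d)) (Q (n + d)) (connTo ℂ n d (g k i))) (ε / 2) (ε / 2) (by positivity) (by
      intro Y hY
      obtain ⟨k, -, rfl⟩ := Finset.mem_image.1 hY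
      choose c hc using fun i => hVg _ ⟨g k i, by simpa [G0] using ⟨k, i, rfl⟩, rfl⟩
      refine ⟨∑ i, icHom A ω (a k i) * c i,
        (sum_near (icHom A ω) V hV1 hV2 hVa (a k) (fun i => connTo ℂ n d (g k i)) c _ hc).trans ?_⟩
      rw [← Finset.sum_mul]
      have h1 : ∑ i, ‖a k i‖ ≤ C := by
        have := Finset.single_le_sum (f := fun k : ι => ∑ i, ‖a k i‖)
          (fun k _ => by positivity) (Finset.mem_univ k)
        rw [hC]; linarith
      calc (∑ i, ‖a k i‖) * (10 * (ε / (20 * C))) ≤ C * (10 * (ε / (20 * C))) := by gcongr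
        _ = ε / 2 := by field_simp; ring)
  refine ⟨d, u, hu1, hu2, fun x hx => (huF x hx).trans (by linarith),
    fun h hh => (hui _ (Finset.mem_image_of_mem _ hh)).trans (by linarith), fun k => ?_⟩
  obtain ⟨b, hb⟩ := huG _ (Finset.mem_image_of_mem _ (Finset.mem_univ k))
  exact ⟨b, by rw [connTo_sum]; linarith⟩

/-- The approximate hypothesis of the intertwining. -/
theorem exists_unitary_inv (hω : (ω : Filter ℕ) ≤ cofinite)
    (hno : IsEmpty (fixedAlg ω β →⋆ₐ[ℂ] ℂ)) (hHF : HalfFlipStatement)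
    (K : Finset H) (F : Finset A) (G : Finset (ZLim A)) (ε : ℝ) (hε : 0 < ε) :
    ∃ u : ZLim A, star u * u = 1 ∧ u * star u = 1 ∧
      (∀ a ∈ F, ‖u * toZLim A a - toZLim A a * u‖ ≤ ε) ∧
      (∀ h ∈ K, ‖zAct (β h) u - u‖ ≤ ε) ∧
      ∀ b ∈ G, ∃ a : A, ‖star u * b * u - toZLim A a‖ ≤ ε := by
  obtain ⟨n, hn⟩ := exists_common (fun m => conn A m) G (ε := ε / 8) (by positivity)
  choose x hx using hn
  choose L a g hg using fun b : G => density A (P n) (Q n) (x b b.2) (ε / 8) (by positivity)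
  obtain ⟨d, u, hu1, hu2, huF, hui, huG⟩ :=
    exists_stage_inv β hω hno hHF K F L a g (ε := ε / 4) (by positivity)
  refine ⟨incl (fun m => conn A m) (n + d) u, (incl_unitary _ hu1 hu2).1,
    (incl_unitary _ hu1 hu2).2, fun y hy => ?_, fun h hh => ?_, fun b hb => ?_⟩
  · rw [toZLim_apply y (n + d)]
    exact norm_comm_incl (fun m => conn A m) ((huF y hy).trans (by linarith))
  · rw [zAct_incl, ← map_sub]
    exact ((norm_incl_le _ _ _).trans (hui h hh)).trans (by linarith)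
  · obtain ⟨b', hb'⟩ := huG ⟨b, hb⟩
    refine ⟨b', ?_⟩
    rw [toZLim_apply b' (n + d)]
    have h1 := near_incl (fun m => conn A m) (hx b hb).le (hg ⟨b, hb⟩)
    rw [← incl_connTo n _ d] at h1
    exact (near_conj (fun m => conn A m) hu1 hu2 h1 hb').trans (by linarith)

/-- An action whose fixed central algebra has no characters is equivariantly Z-stable. -/
theorem equivariant_of_fixedAlg (hω : (ω : Filter ℕ) ≤ cofinite)
    (hno : IsEmpty (fixedAlg ω β →⋆ₐ[ℂ] ℂ)) :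
    IsEquivariantTensorLimit A (fun g => ⇑(β g)) frame := by
  obtain ⟨e, he⟩ := exists_surjective_nat H
  obtain ⟨Φ, U, hU, hcoc, hconj⟩ := intertwine_act e he (fun g a => β g a) (fun g => zAct (β g))
    (fun g h y => by rw [map_mul]; exact zAct_mul _ _ y) (toZLim A) toZLim_injective
    (fun g a => zAct_toZLim (β g) a) (fun F X K ε hε =>
      exists_unitary_inv β hω hno halfFlip K F X ε hε)
  exact isEquivariant_of_conj β Φ U hU hcoc hconj

end

end Vale.Agent.P095.Gen
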