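import Vale.Agent.P095.Act

/-!
# P095: reindexing separable subalgebras, equivariantly for countable groups
-/

namespace Vale.Agent.P095.Gen

open VAgent.P101 Vale.Agent.P095 Filter BoundedContinuousFunction
open scoped CStarAlgebra Topology BoundedContinuousFunction

noncomputable section

universe u

variable {A : Type u} [CStarAlgebra A] {ω : Ultrafilter ℕ}

/-- Composition with a map of the index set. -/
def shift (σ : ℕ → ℕ) : (ℕ →ᵇ A) →⋆ₐ[ℂ] (ℕ →ᵇ A) where
  toFun f := f.compContinuous ⟨σ, continuous_of_discreteTopology⟩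
  map_one' := rfl
  map_mul' _ _ := rfl
  map_zero' := rfl
  map_add' _ _ := rfl
  commutes' _ := rfl
  map_star' _ := rfl

theorem shift_apply (σ : ℕ → ℕ) (f : ℕ →ᵇ A) (n : ℕ) : shift σ f n = f (σ n) := rfl

/-- A reindexing which does not increase countably many norms and makes countably many central
elements commute with countably many given ones. -/
theorem exists_shift (hω : (ω : Filter ℕ) ≤ cofinite) (f g q : ℕ → ℕ →ᵇ A)
    (hf : ∀ i, (UPow.mk (f i) : UPow A ω) ∈ CentralSeq A ω) :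
    ∃ σ : ℕ → ℕ, (∀ i, ‖(UPow.mk (shift σ (q i)) : UPow A ω)‖ ≤ ‖(UPow.mk (q i) : UPow A ω)‖) ∧
      ∀ i j, Commute (UPow.mk (g j) : UPow A ω) (UPow.mk (shift σ (f i))) := by
  have hcomm : ∀ i (w : A) (δ : ℝ), 0 < δ →
      ∀ᶠ k in (ω : Filter ℕ), ‖f i k * w - w * f i k‖ ≤ δ := by
    intro i w δ hδ
    have h := (mem_centralSeq.1 (hf i) w).eq
    rw [UPow.const, ← map_mul, ← map_mul] at h
    have h0 : (UPow.mk (f i * BoundedContinuousFunction.const ℕ w -
        BoundedContinuousFunction.const ℕ w * f i) : UPow A ω) = 0 := by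
      rw [map_sub, h, sub_self]
    filter_upwards [UPow.eventually_of_norm_lt (ω := ω) (r := δ) (by rw [h0, norm_zero]; exact hδ)]
      with k hk
    exact le_of_lt (by simpa using hk)
  have hex : ∀ n : ℕ, ∃ k, (∀ i ∈ Finset.range (n + 1), ∀ j ∈ Finset.range (n + 1),
      ‖f i k * g j n - g j n * f i k‖ ≤ 1 / (n + 1)) ∧
      ∀ i ∈ Finset.range (n + 1), ‖q i k‖ ≤ ‖(UPow.mk (q i) : UPow A ω)‖ + 1 / (n + 1) := by
    intro n
    have hδ : (0 : ℝ) < 1 / (n + 1) := by positivity
    refine (Eventually.and ?_ ?_).exists (f := (ω : Filter ℕ))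
    · exact (eventually_all_finset _).2 fun i _ =>
        (eventually_all_finset _).2 fun j _ => hcomm i _ _ hδ
    · exact (eventually_all_finset _).2 fun i _ =>
        (UPow.eventually_of_norm_lt (lt_add_of_pos_right _ hδ)).mono fun k hk => hk.le
  choose σ hσ using hex
  have htop : (ω : Filter ℕ) ≤ atTop := Nat.cofinite_eq_atTop ▸ hω
  have hsmall : ∀ δ : ℝ, 0 < δ → ∀ i : ℕ, ∀ᶠ n : ℕ in (ω : Filter ℕ),
      1 / ((n : ℝ) + 1) < δ ∧ i ≤ n :=
    fun δ hδ i => Filter.Eventually.filter_mono htop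
      ((tendsto_one_div_add_atTop_nhds_zero_nat.eventually_lt_const hδ).and (eventually_ge_atTop i))
  refine ⟨σ, fun i => le_of_forall_pos_le_add fun δ hδ => ?_, fun i j => ?_⟩
  · refine UPow.norm_le_of_eventually (by positivity) ?_
    filter_upwards [hsmall δ hδ i] with n hn
    rw [shift_apply]
    linarith [(hσ n).2 i (Finset.mem_range.2 (by omega)), hn.1]
  · refine (sub_eq_zero.1 (norm_le_zero_iff.1 (le_of_forall_pos_le_add fun δ hδ => ?_))).symm
    rw [zero_add, ← map_mul, ← map_mul, ← map_sub]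
    refine UPow.norm_le_of_eventually hδ.le ?_
    filter_upwards [hsmall δ hδ (max i j)] with n hn
    have := (hσ n).1 i (Finset.mem_range.2 (by omega)) j (Finset.mem_range.2 (by omega))
    simp only [BoundedContinuousFunction.sub_apply, BoundedContinuousFunction.mul_apply,
      shift_apply]
    linarith [hn.1]

theorem isSeparable_adjoin_range {E : Type*} [CStarAlgebra E] (f : ℕ → E) :
    TopologicalSpace.IsSeparable (StarAlgebra.adjoin ℂ (Set.range f) : Set E) := by
  have hc : (Set.range f ∪ star (Set.range f)).Countable :=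
    (Set.countable_range f).union ((Set.countable_range f).preimage star_injective)
  set s := Set.range f ∪ star (Set.range f)
  have : Countable s := hc.to_subtype
  have hm : (Submonoid.closure s : Set E).Countable := by
    refine Set.Countable.mono ?_ (Set.countable_range fun l : List s => (l.map Subtype.val).prod)
    intro x hx
    induction hx using Submonoid.closure_induction with
    | mem y hy => exact ⟨[⟨y, hy⟩], by simp⟩
    | one => exact ⟨[], by simp⟩
    | mul y z _ _ hy hz =>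
      obtain ⟨l, rfl⟩ := hy
      obtain ⟨l', rfl⟩ := hz
      exact ⟨l ++ l', by simp⟩
  have e : (StarAlgebra.adjoin ℂ (Set.range f) : Set E) =
      (Submodule.span ℂ (Submonoid.closure s : Set E) : Set E) := by
    rw [← Algebra.adjoin_eq_span]; rfl
  rw [e]
  exact hm.isSeparable.span

theorem norm_le_of_closure {X Y Z : Type*} [TopologicalSpace X] [NormedAddCommGroup Y]
    [NormedAddCommGroup Z] {F : X × X → Y} {H : X × X → Z} (hF : Continuous F) (hH : Continuous H)
    {s : Set X} (h : ∀ x ∈ s, ∀ y ∈ s, ‖F (x, y)‖ ≤ ‖H (x, y)‖) {x y : X} (hx : x ∈ closure s)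
    (hy : y ∈ closure s) : ‖F (x, y)‖ ≤ ‖H (x, y)‖ := by
  have hm : (x, y) ∈ closure (s ×ˢ s) := by rw [closure_prod_eq]; exact ⟨hx, hy⟩
  exact closure_minimal (t := {t | ‖F t‖ ≤ ‖H t‖}) (fun t ht => h t.1 ht.1 t.2 ht.2)
    (isClosed_le hF.norm hH.norm) hm

/-- Separable subalgebras of the central sequence algebra have equivariant copies commuting with
countable sets. -/
theorem exists_copy_mul [TopologicalSpace.SeparableSpace A] (hω : (ω : Filter ℕ) ≤ cofinite)
    {G : Type*} [Countable G] [Nonempty G] (β : G → (A ≃⋆ₐ[ℂ] A))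
    (D : StarSubalgebra ℂ (CentralSeq A ω))
    (hD : TopologicalSpace.IsSeparable (D : Set (CentralSeq A ω)))
    (S : Set (CentralSeq A ω)) (hS : S.Countable) :
    ∃ φ : D →⋆ₐ[ℂ] CentralSeq A ω, (∀ z ∈ S, ∀ x, Commute z (φ x)) ∧
      (∀ g (x y : D), centralAct ω (β g) (x : CentralSeq A ω) = (y : CentralSeq A ω) →
        centralAct ω (β g) (φ x) = φ y) ∧
      ∀ (x : D) (b : A), ‖(φ x : UPow A ω) * UPow.const b‖ ≤
        ‖((x : CentralSeq A ω) : UPow A ω) * UPow.const b‖ := by
  classical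
  choose sec hsec using fun x : CentralSeq A ω => UPow.mk_surjective (x : UPow A ω)
  obtain ⟨c, hc, hDc⟩ := hD
  obtain ⟨d, hd⟩ := ((hc.insert (0 : CentralSeq A ω))).exists_eq_range (Set.insert_nonempty _ _)
  let f : ℕ → ℕ →ᵇ A := fun i => sec (d i)
  let 𝓛 := StarAlgebra.adjoin ℂ (Set.range f)
  obtain ⟨c', hc', hLc⟩ := isSeparable_adjoin_range f
  obtain ⟨l, hl⟩ := (hc'.insert (0 : ℕ →ᵇ A)).exists_eq_range (Set.insert_nonempty _ _)
  obtain ⟨z, hz⟩ := (hS.insert 0).exists_eq_range (Set.insert_nonempty _ _)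
  obtain ⟨e, he⟩ := exists_surjective_nat G
  -- the sequences to be commuted with, and those whose norms must not grow
  let a := TopologicalSpace.denseSeq A
  let ge : ℕ → ℕ →ᵇ A := fun j =>
    match (Nat.unpair j).1 with
    | 0 => BoundedContinuousFunction.const ℕ (a (Nat.unpair j).2)
    | 1 => BoundedContinuousFunction.const ℕ (star (a (Nat.unpair j).2))
    | 2 => sec (z (Nat.unpair j).2)
    | _ => star (sec (z (Nat.unpair j).2))
  let qe : ℕ → ℕ →ᵇ A := fun i =>
    if (Nat.unpair i).1 = 0 then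
      if (Nat.unpair (Nat.unpair i).2).1 = 0 then l (Nat.unpair (Nat.unpair i).2).2
      else l (Nat.unpair (Nat.unpair i).2).2 *
        BoundedContinuousFunction.const ℕ (a ((Nat.unpair (Nat.unpair i).2).1 - 1))
    else seqAct (β (e (Nat.unpair (Nat.unpair i).2).1)) (l ((Nat.unpair i).1 - 1)) -
      l (Nat.unpair (Nat.unpair i).2).2
  obtain ⟨σ, hσn, hσc⟩ := exists_shift hω f ge qe fun i => by rw [hsec]; exact (d i).2
  let re : (ℕ →ᵇ A) →⋆ₐ[ℂ] UPow A ω := UPow.mkHom.comp (shift σ)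
  have hre : ∀ f, re f = UPow.mk (shift σ f) := fun f => rfl
  have hnorm : ∀ f ∈ 𝓛, ‖re f‖ ≤ ‖(UPow.mk f : UPow A ω)‖ := by
    intro f hf
    have hclosed : IsClosed {g : ℕ →ᵇ A | ‖re g‖ ≤ ‖(UPow.mk g : UPow A ω)‖} :=
      isClosed_le (map_continuous re).norm UPow.continuous_mk.norm
    refine (closure_minimal ?_ hclosed) (hLc hf)
    intro g hg
    obtain ⟨i, rfl⟩ : g ∈ Set.range l := hl ▸ Set.mem_insert_of_mem _ hg
    have h := hσn (Nat.pair 0 (Nat.pair 0 i))
    simpa [qe, hre] using h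
  have hmul : ∀ (b : A), ∀ f ∈ 𝓛,
      ‖re f * UPow.const b‖ ≤ ‖(UPow.mk f : UPow A ω) * UPow.const b‖ := by
    intro b f hf
    have hclosed : IsClosed {b : A |
        ‖re f * UPow.const b‖ ≤ ‖(UPow.mk f : UPow A ω) * UPow.const b‖} :=
      isClosed_le (continuous_const.mul (UPow.continuous_const' (A := A) (ω := ω))).norm
        (continuous_const.mul (UPow.continuous_const' (A := A) (ω := ω))).norm
    refine closure_minimal ?_ hclosed (TopologicalSpace.denseRange_denseSeq A b)
    rintro _ ⟨k, rfl⟩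
    have hclosed' : IsClosed {g : ℕ →ᵇ A | ‖re g * UPow.const (a k)‖ ≤
        ‖(UPow.mk g : UPow A ω) * UPow.const (a k)‖} :=
      isClosed_le ((map_continuous re).mul continuous_const).norm
        (Continuous.mul (UPow.continuous_mk (A := A) (ω := ω)) continuous_const).norm
    refine (closure_minimal ?_ hclosed') (hLc hf)
    intro g hg
    obtain ⟨i, rfl⟩ : g ∈ Set.range l := hl ▸ Set.mem_insert_of_mem _ hg
    have h := hσn (Nat.pair 0 (Nat.pair (k + 1) i))
    simp only [qe, Nat.unpair_pair, Nat.succ_ne_zero, if_false, if_true,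
      Nat.add_sub_cancel, map_mul] at h
    show ‖re (l i) * UPow.const (a k)‖ ≤ _
    rw [hre]
    exact h
  have hequi : ∀ g, ∀ p ∈ 𝓛, ∀ p' ∈ 𝓛,
      ‖upowAct ω (β g) (re p) - re p'‖ ≤
        ‖upowAct ω (β g) (UPow.mk p) - (UPow.mk p' : UPow A ω)‖ := by
    intro g p hp p' hp'
    obtain ⟨j, rfl⟩ := he g
    refine norm_le_of_closure (F := fun t : (ℕ →ᵇ A) × (ℕ →ᵇ A) =>
        upowAct ω (β (e j)) (re t.1) - re t.2) (H := fun t : (ℕ →ᵇ A) × (ℕ →ᵇ A) =>
        upowAct ω (β (e j)) (UPow.mk t.1) - (UPow.mk t.2 : UPow A ω)) ?_ ?_ ?_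
      (x := p) (y := p') (s := Set.range l) ?_ ?_
    · exact ((map_continuous (upowAct ω (β (e j)))).comp
        ((map_continuous re).comp continuous_fst)).sub ((map_continuous re).comp continuous_snd)
    · exact ((map_continuous (upowAct ω (β (e j)))).comp
        (UPow.continuous_mk.comp continuous_fst)).sub (UPow.continuous_mk.comp continuous_snd)
    · rintro _ ⟨i, rfl⟩ _ ⟨k, rfl⟩
      have h := hσn (Nat.pair (i + 1) (Nat.pair j k))
      simp only [qe, Nat.unpair_pair, Nat.succ_ne_zero, if_false, Nat.add_sub_cancel] at h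
      rw [map_sub, map_sub, map_sub] at h
      show ‖upowAct ω (β (e j)) (re (l i)) - re (l k)‖ ≤ _
      rw [hre, hre]
      exact h
    · rw [← hl]; exact closure_mono (Set.subset_insert _ _) (hLc hp)
    · rw [← hl]; exact closure_mono (Set.subset_insert _ _) (hLc hp')
  have hcom : ∀ i, (∀ b : A, Commute (UPow.const b : UPow A ω) (re (f i))) ∧
      ∀ w ∈ S, Commute ((w : CentralSeq A ω) : UPow A ω) (re (f i)) ∧
        Commute (star ((w : CentralSeq A ω) : UPow A ω)) (re (f i)) := by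
    intro i
    refine ⟨fun b => ?_, fun w hw => ?_⟩
    · have hclosed : IsClosed {b : A | Commute (UPow.const b : UPow A ω) (re (f i))} :=
        isClosed_eq (Continuous.mul (UPow.continuous_const' (A := A) (ω := ω)) continuous_const)
          (Continuous.mul continuous_const (UPow.continuous_const' (A := A) (ω := ω)))
      refine closure_minimal ?_ hclosed (TopologicalSpace.denseRange_denseSeq A b)
      rintro _ ⟨k, rfl⟩
      have h := hσc i (Nat.pair 0 k)
      simpa [ge, hre, UPow.const] using h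
    · obtain ⟨k, rfl⟩ : w ∈ Set.range z := hz ▸ Set.mem_insert_of_mem _ hw
      have h := hσc i (Nat.pair 2 k)
      have h' := hσc i (Nat.pair 3 k)
      simp only [ge, Nat.unpair_pair, hsec, UPow.mk_star] at h h'
      exact ⟨h, h'⟩
  let pair : (ℕ →ᵇ A) →⋆ₐ[ℂ] UPow A ω × UPow A ω := UPow.mkHom.prod re
  let Γ : StarSubalgebra ℂ (UPow A ω × UPow A ω) := (𝓛.map pair).topologicalClosure
  have hΓc : IsClosed (Γ : Set (UPow A ω × UPow A ω)) :=
    StarSubalgebra.isClosed_topologicalClosure _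
  have hΓle : ∀ p ∈ Γ, ‖p.2‖ ≤ ‖p.1‖ := by
    intro p hp
    refine closure_minimal ?_ (isClosed_le continuous_snd.norm continuous_fst.norm) hp
    rintro _ ⟨g, hg, rfl⟩
    exact hnorm g hg
  have hΓeq : ∀ g, ∀ p ∈ Γ, ∀ p' ∈ Γ,
      ‖upowAct ω (β g) p.2 - p'.2‖ ≤ ‖upowAct ω (β g) p.1 - p'.1‖ := by
    intro g p hp p' hp'
    refine norm_le_of_closure (F := fun t : (UPow A ω × UPow A ω) × (UPow A ω × UPow A ω) =>
        upowAct ω (β g) t.1.2 - t.2.2) (H := fun t : (UPow A ω × UPow A ω) × (UPow A ω × UPow A ω) =>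
        upowAct ω (β g) t.1.1 - t.2.1) ?_ ?_ ?_
      (x := p) (y := p') (s := (𝓛.map pair : Set (UPow A ω × UPow A ω))) hp hp'
    · exact ((map_continuous (upowAct ω (β g))).comp
        (continuous_snd.comp continuous_fst)).sub (continuous_snd.comp continuous_snd)
    · exact ((map_continuous (upowAct ω (β g))).comp
        (continuous_fst.comp continuous_fst)).sub (continuous_fst.comp continuous_snd)
    · rintro _ ⟨i, hi, rfl⟩ _ ⟨k, hk, rfl⟩
      exact hequi g i hi k hk
  have huniq : ∀ p ∈ Γ, ∀ p' ∈ Γ, p.1 = p'.1 → p.2 = p'.2 := by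
    intro p hp p' hp' h
    have h1 := hΓle _ (sub_mem hp hp')
    rw [Prod.fst_sub, h, sub_self, norm_zero] at h1
    exact sub_eq_zero.1 (norm_le_zero_iff.1 h1)
  letI : CStarAlgebra Γ := StarSubalgebra.cstarAlgebra Γ
  let pr : Γ →⋆ₐ[ℂ] UPow A ω := (StarAlgHom.fst ℂ _ _).comp Γ.subtype
  have hpr : Function.Injective pr := fun p p' h =>
    Subtype.ext (Prod.ext h (huniq _ p.2 _ p'.2 h))
  have hrange : IsClosed (Set.range pr) :=
    (NonUnitalStarAlgHom.isometry pr hpr).isClosedEmbedding.isClosed_range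
  have hex : ∀ x : D, ∃ p ∈ Γ, p.1 = ((x : CentralSeq A ω) : UPow A ω) := by
    intro x
    have hK : IsClosed ((Subtype.val : CentralSeq A ω → UPow A ω) ⁻¹' Set.range pr) :=
      hrange.preimage continuous_subtype_val
    have hsub : c ⊆ (Subtype.val : CentralSeq A ω → UPow A ω) ⁻¹' Set.range pr := by
      intro y hy
      obtain ⟨i, rfl⟩ : y ∈ Set.range d := hd ▸ Set.mem_insert_of_mem _ hy
      exact ⟨⟨pair (f i), StarSubalgebra.le_topologicalClosure _
        ⟨f i, StarAlgebra.subset_adjoin ℂ _ ⟨i, rfl⟩, rfl⟩⟩, hsec (d i)⟩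
    obtain ⟨⟨p, hp⟩, hpx⟩ := closure_minimal hsub hK (hDc x.2)
    exact ⟨p, hp, hpx⟩
  choose ψ hψΓ hψ using hex
  have hcent : ∀ g : UPow A ω, (∀ i, Commute g (re (f i))) →
      (∀ i, Commute (star g) (re (f i))) → ∀ p ∈ Γ, Commute g p.2 := by
    intro g hg hg' p hp
    refine closure_minimal ?_ (isClosed_eq (continuous_const.mul continuous_snd)
      (continuous_snd.mul continuous_const)) hp
    rintro _ ⟨x, hx, rfl⟩
    have hle : 𝓛 ≤ (StarSubalgebra.centralizer ℂ ({g} : Set (UPow A ω))).comap re := by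
      refine StarAlgebra.adjoin_le fun x hx => ?_
      obtain ⟨i, rfl⟩ := hx
      rw [SetLike.mem_coe, StarSubalgebra.mem_comap, StarSubalgebra.mem_centralizer_iff]
      rintro _ rfl
      exact ⟨(hg i).eq, (hg' i).eq⟩
    exact (StarSubalgebra.mem_centralizer_iff ℂ).1 (hle hx) g rfl |>.1
  have hmem : ∀ x : D, (ψ x).2 ∈ CentralSeq A ω := fun x => mem_centralSeq.2 fun b =>
    hcent _ (fun i => (hcom i).1 b) (fun i => by rw [← UPow.const_star]; exact (hcom i).1 _) _
      (hψΓ x)
  have huni : ∀ (x : D) p, p ∈ Γ → p.1 = ((x : CentralSeq A ω) : UPow A ω) → (ψ x).2 = p.2 :=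
    fun x p hp h => huniq _ (hψΓ x) _ hp ((hψ x).trans h.symm)
  refine ⟨{
    toFun := fun x => ⟨(ψ x).2, hmem x⟩
    map_one' := Subtype.ext (huni 1 1 (one_mem Γ) rfl)
    map_mul' := fun x y => Subtype.ext (huni (x * y) _ (mul_mem (hψΓ x) (hψΓ y))
      (by rw [Prod.fst_mul, hψ, hψ]; rfl))
    map_zero' := Subtype.ext (huni 0 0 (zero_mem Γ) rfl)
    map_add' := fun x y => Subtype.ext (huni (x + y) _ (add_mem (hψΓ x) (hψΓ y))
      (by rw [Prod.fst_add, hψ, hψ]; rfl))
    commutes' := fun r => Subtype.ext (huni (algebraMap ℂ D r) (algebraMap ℂ _ r)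
      (Γ.algebraMap_mem r) rfl)
    map_star' := fun x => Subtype.ext (huni (star x) _ (star_mem (hψΓ x))
      (by rw [Prod.fst_star, hψ]; rfl)) }, fun w hw x => Subtype.ext ?_, fun g x y h => ?_,
    fun x b => ?_⟩
  · exact (hcent _ (fun i => ((hcom i).2 w hw).1) (fun i => ((hcom i).2 w hw).2) _ (hψΓ x)).eq
  · have h1 := hΓeq g _ (hψΓ x) _ (hψΓ y)
    rw [hψ, hψ, ← coe_centralAct, h, sub_self, norm_zero] at h1
    exact Subtype.ext (sub_eq_zero.1 (norm_le_zero_iff.1 h1))
  · show ‖(ψ x).2 * UPow.const b‖ ≤ _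
    rw [← hψ x]
    refine closure_minimal (t := {p : UPow A ω × UPow A ω |
      ‖p.2 * UPow.const b‖ ≤ ‖p.1 * UPow.const b‖}) ?_
      (isClosed_le (continuous_snd.mul continuous_const).norm
        (continuous_fst.mul continuous_const).norm) (hψΓ x)
    rintro _ ⟨g, hg, rfl⟩
    exact hmul b g hg

/-- Separable subalgebras of the central sequence algebra have equivariant copies commuting with
countable sets. -/
theorem exists_copy [TopologicalSpace.SeparableSpace A] (hω : (ω : Filter ℕ) ≤ cofinite)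
    {G : Type*} [Countable G] [Nonempty G] (β : G → (A ≃⋆ₐ[ℂ] A))
    (D : StarSubalgebra ℂ (CentralSeq A ω))
    (hD : TopologicalSpace.IsSeparable (D : Set (CentralSeq A ω)))
    (S : Set (CentralSeq A ω)) (hS : S.Countable) :
    ∃ φ : D →⋆ₐ[ℂ] CentralSeq A ω, (∀ z ∈ S, ∀ x, Commute z (φ x)) ∧
      ∀ g (x y : D), centralAct ω (β g) (x : CentralSeq A ω) = (y : CentralSeq A ω) →
        centralAct ω (β g) (φ x) = φ y := by
  obtain ⟨φ, h1, h2, -⟩ := exists_copy_mul hω β D hD S hS
  exact ⟨φ, h1, h2⟩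

end

end Vale.Agent.P095.Gen
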